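import Vale.Agent.P242W.Rows

/-!
# P242W: the row `NEW1` (Fuglede's lemma)
-/

open MeasureTheory Set Filter Topology unitInterval
open scoped ENNReal NNReal

universe u

namespace Vale.Agent.P242W76

open P233.Met (RSlope Good)
open P242W

theorem limsup_le_add {a b e : ℕ → ℝ} {c A B : ℝ} (he : Tendsto e atTop (𝓝 0))
    (h : ∀ k, a k ≤ b k + c + e k) (ha : ∀ᶠ k in atTop, A ≤ a k) (hb : ∀ᶠ k in atTop, b k ≤ B) :
    limsup a atTop ≤ limsup b atTop + c := by
  refine le_of_forall_pos_le_add fun ε hε => ?_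
  refine limsup_le_of_le (isCoboundedUnder_le_of_eventually_le atTop ha) ?_
  filter_upwards [eventually_lt_of_limsup_lt (lt_add_of_pos_right (limsup b atTop) (half_pos hε))
    (isBoundedUnder_of_eventually_le hb), he.eventually (gt_mem_nhds (half_pos hε))] with k h1 h2
  linarith [h k]

variable {X : Type u} [MetricSpace X] [MeasurableSpace X]

theorem modulus_zero {m : Measure X} {ρ : X → ℝ≥0∞} (hρ : Measurable ρ)
    (h2 : ∫⁻ x, ρ x ^ 2 ∂m ≠ ∞) {Γ : Set C(I, X)} (h : ∀ γ ∈ Γ, lineInt ρ γ = ∞) :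
    modulus m Γ = 0 := by
  have t : Tendsto (fun k : ℕ => (k : ℝ≥0∞)⁻¹ * ∫⁻ x, ρ x ^ 2 ∂m) atTop (𝓝 0) := by
    simpa using ENNReal.Tendsto.mul_const ENNReal.tendsto_inv_nat_nhds_zero (Or.inr h2)
  refine le_antisymm (ge_of_tendsto t ?_) zero_le
  filter_upwards [eventually_ge_atTop 1] with k hk
  have k1 : (k : ℝ≥0∞)⁻¹ ≤ 1 := ENNReal.inv_le_one.2 (by exact_mod_cast hk)
  have k2 : (k : ℝ≥0∞)⁻¹ ≠ ∞ := ne_top_of_le_ne_top ENNReal.one_ne_top k1
  unfold modulus
  refine iInf_le_of_le (fun x => (k : ℝ≥0∞)⁻¹ * ρ x) (iInf_le_of_le (hρ.const_mul _)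
    (iInf_le_of_le (fun γ hγ => ?_) ?_))
  · have := h γ hγ
    unfold lineInt at this ⊢
    simp only [mul_assoc]
    rw [lintegral_const_mul' _ _ k2, this, ENNReal.mul_top (by simp)]
    exact le_top
  · rw [← lintegral_const_mul' _ _ k2]
    refine lintegral_mono fun x => ?_
    rw [mul_pow, sq]
    exact mul_le_mul_left (mul_le_of_le_one_left' k1) _

variable [BorelSpace X]

theorem new1 (hU : UGL X) (hS : SPM1 X) : NEW1 X := by
  intro m f G h
  refine ⟨⟨h.1, h.2.1, h.nonneg⟩, ?_⟩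
  obtain ⟨hf, hG, h⟩ := P233.Met.rSlope_iff_eps.1 h
  choose u g hg h1 h2 using fun k : ℕ => h ((4⁻¹ : ℝ≥0∞) ^ k) (pow_ne_zero _ (by simp))
  have t4 : Tendsto (fun k : ℕ => (4⁻¹ : ℝ≥0∞) ^ k) atTop (𝓝 0) :=
    ENNReal.tendsto_pow_atTop_nhds_zero_of_lt_one (by norm_num)
  obtain ⟨ns, mono, lim⟩ := (tendstoInMeasure_of_tendsto_eLpNorm (p := 2) two_ne_zero
    (fun k => (hg k).2.1.1) hf.1 (tendsto_of_tendsto_of_tendsto_of_le_of_le tendsto_const_nhds t4
      (fun _ => zero_le) h1)).exists_seq_tendsto_ae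
  have am : ∀ k, AEMeasurable (fun x => ‖g k x - G x‖ₑ) m := fun k =>
    ((hg k).2.2.1.1.sub hG.1).enorm
  let D : ℕ → X → ℝ≥0∞ := fun k => (am k).mk _
  have mD : ∀ k, Measurable (D k) := fun k => (am k).measurable_mk
  have gd : ∀ᵐ x ∂m, Tendsto (fun i => u (ns i) x) atTop (𝓝 (f x)) ∧
      ∀ k, P233.lipAt (u k) x ≤ ENNReal.ofReal (G x) + D k x := by
    refine lim.and (ae_all_iff.2 fun k => ?_)
    filter_upwards [(hg k).2.2.2, (am k).ae_eq_mk] with x a b
    refine a.2.trans ?_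
    rw [show D k x = _ from b.symm, Real.enorm_eq_ofReal_abs]
    exact (ENNReal.ofReal_le_ofReal (by linarith [le_abs_self (g k x - G x)])).trans
      ENNReal.ofReal_add_le
  obtain ⟨N, hN, mN, N0⟩ := exists_measurable_superset_of_null gd
  refine ⟨fun x => limsup (fun i => u (ns i) x) atTop, gd.mono fun x hx => hx.1.limsup_eq, ?_⟩
  classical
  let ρ : X → ℝ≥0∞ := fun x => if x ∈ N then ∞ else ⨆ k, 2 ^ k * D k x
  have mρ : Measurable ρ :=
    Measurable.ite mN measurable_const (Measurable.iSup fun k => (mD k).const_mul _)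
  have Dρ : ∀ k x, D k x ≤ 2⁻¹ ^ k * ρ x := fun k x => by
    have : 2 ^ k * D k x ≤ ρ x := by
      simp only [ρ]
      split_ifs
      exacts [le_top, le_iSup (fun k => 2 ^ k * D k x) k]
    refine le_trans (le_of_eq ?_) (mul_le_mul_right this _)
    rw [← mul_assoc, ← mul_pow, ENNReal.inv_mul_cancel (by simp) (by simp), one_pow, one_mul]
  refine modulus_zero mρ (ne_of_lt ?_) fun γ ⟨ac, nu⟩ => by_contra fun fin => nu ?_
  · have e : ∀ k, ∫⁻ x, (2 ^ k * D k x) ^ 2 ∂m ≤ 4⁻¹ ^ k := fun k => by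
      have a : ∫⁻ x, D k x ^ 2 ∂m ≤ (4⁻¹ ^ k) ^ 2 := by
        refine le_trans (le_of_eq ?_) (pow_le_pow_left' (h2 k) 2)
        rw [eLpNorm_eq_lintegral_rpow_enorm_toReal two_ne_zero ENNReal.ofNat_ne_top,
          ← ENNReal.rpow_natCast, ← ENNReal.rpow_mul]
        norm_num
        exact lintegral_congr_ae ((am k).ae_eq_mk.mono fun x hx => congrArg (· ^ 2) hx.symm)
      simp only [mul_pow]
      rw [lintegral_const_mul' _ _ (by simp)]
      refine (mul_le_mul_right a _).trans (le_of_eq ?_)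
      rw [← pow_mul, mul_comm k 2, pow_mul, sq (4⁻¹ ^ k), ← mul_assoc, ← mul_pow,
        show (2 : ℝ≥0∞) ^ 2 = 4 by norm_num, ENNReal.mul_inv_cancel (by simp) (by simp), one_pow,
        one_mul]
    calc ∫⁻ x, ρ x ^ 2 ∂m ≤ ∫⁻ x, ∑' k, (2 ^ k * D k x) ^ 2 ∂m := by
          refine lintegral_mono_ae ?_
          filter_upwards [measure_eq_zero_iff_ae_notMem.1 N0] with x hx
          simp only [ρ, if_neg hx]
          rw [ENNReal.iSup_pow_of_ne_zero two_ne_zero]
          exact iSup_le fun k => ENNReal.le_tsum k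
      _ = ∑' k, ∫⁻ x, (2 ^ k * D k x) ^ 2 ∂m :=
          lintegral_tsum fun k => (((mD k).const_mul _).pow_const 2).aemeasurable
      _ ≤ ∑' k, 4⁻¹ ^ k := ENNReal.tsum_le_tsum e
      _ < ∞ := by
          rw [ENNReal.tsum_geometric]
          simp
  unfold UG
  by_cases L : lineInt (fun x => ENNReal.ofReal (G x)) γ = ∞
  · rw [L]
    exact le_top
  have mγ : Measurable fun t => ρ (γ t) * speed γ t :=
    (mρ.comp γ.continuous.measurable).mul (hS γ)
  have ae : ∀ᵐ t, speed γ t ≠ 0 → γ t ∉ N := by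
    filter_upwards [ae_lt_top mγ fin] with t ht h0 hn
    simp only [ρ, if_pos hn, ENNReal.top_mul h0] at ht
    exact lt_irrefl _ ht
  by_cases z : ∀ᵐ t, speed γ t = 0
  · have := hU (fun y => dist y (γ 0)) 1 (LipschitzWith.dist_left _) γ ac 0 1 zero_le_one
    rw [lintegral_congr_ae (g := fun _ => 0) (ae_restrict_of_ae (z.mono fun t ht => by
      simp [ht])), lintegral_zero] at this
    have e : γ 1 = γ 0 := by simpa using this
    simp [e]
  obtain ⟨t0, s0, n0⟩ : ∃ t, speed γ t ≠ 0 ∧ γ t ∉ N := by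
    by_contra hc
    refine z (ae.mono fun t ht => by_contra fun h0 => hc ⟨t, h0, ht h0⟩)
  have c0 := (not_not.1 fun h => n0 (hN h)).1
  obtain ⟨c, hc⟩ : ∃ c, c = (lineInt (fun x => ENNReal.ofReal (G x)) γ).toReal := ⟨_, rfl⟩
  obtain ⟨P, hP⟩ : ∃ c, c = (lineInt ρ γ).toReal := ⟨_, rfl⟩
  have est : ∀ k (s t : I), s ≤ t → |u k (γ t) - u k (γ s)| ≤ c + 2⁻¹ ^ k * P := by
    intro k s t hst
    obtain ⟨K, hK⟩ := (hg k).1
    have f2 : (2⁻¹ : ℝ≥0∞) ^ k ≠ ∞ := ENNReal.pow_ne_top (by simp)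
    have a : ‖u k (γ t) - u k (γ s)‖ₑ ≤
        lineInt (fun x => ENNReal.ofReal (G x)) γ + 2⁻¹ ^ k * lineInt ρ γ := by
      refine (hU _ K hK γ ac s t hst).trans ((setLIntegral_le_lintegral _ _).trans ?_)
      unfold lineInt
      rw [← lintegral_const_mul' _ _ f2, ← lintegral_add_right _ (mγ.const_mul _)]
      refine lintegral_mono_ae (ae.mono fun r hr => ?_)
      by_cases h0 : speed γ r = 0
      · simp [h0]
      · simp only
        rw [← mul_assoc, ← add_mul]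
        exact mul_le_mul_left (((not_not.1 fun h => hr h0 (hN h)).2 k).trans
          (add_le_add_right (Dρ k _) _)) _
    have b := ENNReal.toReal_mono (ENNReal.add_ne_top.2 ⟨L, ENNReal.mul_ne_top f2 fin⟩) a
    rw [ENNReal.toReal_add L (ENNReal.mul_ne_top f2 fin), ENNReal.toReal_mul, ← hc, ← hP] at b
    simpa using b
  have te : Tendsto (fun i => (2⁻¹ : ℝ) ^ ns i * P) atTop (𝓝 0) := by
    simpa using ((tendsto_pow_atTop_nhds_zero_of_lt_one (r := (2⁻¹ : ℝ)) (by norm_num)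
      (by norm_num)).comp mono.tendsto_atTop).mul_const P
  have bd : ∀ s : I, ∀ᶠ i in atTop, f (γ t0) - 2 - c ≤ u (ns i) (γ s) ∧
      u (ns i) (γ s) ≤ f (γ t0) + 2 + c := fun s => by
    filter_upwards [te.eventually (gt_mem_nhds one_pos), Metric.tendsto_nhds.1 c0 1 one_pos]
      with i a b
    rw [Real.dist_eq, abs_lt] at b
    rcases le_total s t0 with hs | hs
    · have := abs_le.1 (est (ns i) _ _ hs)
      constructor <;> linarith [this.1, this.2]
    · have := abs_le.1 (est (ns i) _ _ hs)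
      constructor <;> linarith [this.1, this.2]
  have l1 := limsup_le_add (a := fun i => u (ns i) (γ 1)) (b := fun i => u (ns i) (γ 0)) (c := c) te
    (fun i => by linarith [(abs_le.1 (est (ns i) 0 1 zero_le_one)).2])
    ((bd 1).mono fun _ h => h.1) ((bd 0).mono fun _ h => h.2)
  have l2 := limsup_le_add (a := fun i => u (ns i) (γ 0)) (b := fun i => u (ns i) (γ 1)) (c := c) te
    (fun i => by linarith [(abs_le.1 (est (ns i) 0 1 zero_le_one)).1])
    ((bd 0).mono fun _ h => h.1) ((bd 1).mono fun _ h => h.2)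
  rw [Real.enorm_eq_ofReal_abs, ← ENNReal.ofReal_toReal L, ← hc]
  exact ENNReal.ofReal_le_ofReal (abs_le.2 ⟨by linarith, by linarith⟩)

end Vale.Agent.P242W76
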