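import Vale.Agent.P242W.Rows

/-!
# P242W: the row `KEY` (transport along the linear curve of densities)
-/

open MeasureTheory Set Filter Topology unitInterval
open scoped ENNReal NNReal

universe u

namespace Vale.Agent.P242W76

open P233.Met (RSlope Good)
open P242W P242W70 P242W72

variable {X : Type u} [MetricSpace X] [MeasurableSpace X] [BorelSpace X]

theorem dual_smul {m : Measure X} [IsFiniteMeasure m] {h : X → ℝ} {N : ℝ}
    (H : ∀ v g, Good m v g → ∫ y, v y * h y ∂m ≤ N * √(∫ y, g y ^ 2 ∂m)) (a : ℝ) :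
    Dual m (fun y => a * h y) (|a| * N) := by
  rintro u g ⟨K, hK⟩ ⟨B, hB⟩ gc g0 ⟨B', hB'⟩ hl
  have m1 : MemLp u 2 m := MemLp.of_bound hK.continuous.aestronglyMeasurable B
    (Eventually.of_forall fun x => by rw [Real.norm_eq_abs]; exact hB x)
  have m2 : MemLp g 2 m := MemLp.of_bound gc.aestronglyMeasurable B'
    (Eventually.of_forall fun x => by rw [Real.norm_eq_abs, abs_of_nonneg (g0 x)]; exact hB' x)
  have h1 := H u g ⟨⟨K, hK⟩, m1, m2, Eventually.of_forall fun x => ⟨g0 x, hl x⟩⟩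
  have h2 := H (fun y => -u y) g ⟨⟨K, hK.neg⟩, m1.neg, m2, Eventually.of_forall fun x =>
    ⟨g0 x, le_of_eq_of_le (by
      unfold P233.lipAt
      congr 1
      funext y
      rw [← abs_neg]
      congr 3
      ring) (hl x)⟩⟩
  simp only [neg_mul, integral_neg] at h2
  have e : ∫ x, u x * (a * h x) ∂m = a * ∫ x, u x * h x ∂m := by
    rw [← integral_const_mul]
    congr 1
    funext x
    ring
  rw [e, mul_assoc]
  refine (le_abs_self _).trans ?_
  rw [abs_mul]
  exact mul_le_mul_of_nonneg_left (abs_le.2 ⟨by linarith, h1⟩) (abs_nonneg a)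

omit [BorelSpace X] [MeasurableSpace X] in
theorem meas_Ed [MeasurableSpace C(I, X)] [BorelSpace C(I, X)] :
    Measurable fun γ : C(I, X) => Ed γ := by
  refine Measurable.iSup fun n => (Continuous.measurable ?_).ennreal_ofReal
  unfold En
  fun_prop

variable [CompleteSpace X] [SecondCountableTopology X] [MeasurableSpace C(I, X)]
  [BorelSpace C(I, X)]

/-- the estimate for one value of the parameter `M` -/
theorem key_M (hE : ENG X) (hC : CS X) (m : Measure X) [IsFiniteMeasure m] {x : X} {R : ℝ}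
    (hR : ∀ᵐ y ∂m, dist y x ≤ R) {f G h : X → ℝ} (hU : IsIntUG m f G) (hh : Measurable h)
    {B N : ℝ} (hB : ∀ y, |h y| ≤ B) (h0 : ∫ y, h y ∂m = 0) (hN : 0 ≤ N)
    (H : ∀ v g, Good m v g → ∫ y, v y * h y ∂m ≤ N * √(∫ y, g y ^ 2 ∂m))
    (hZ : 0 < m.real univ) {M : ℝ} (hM : B < M) :
    ∫ y, f y * h y ∂m ≤ N * √(∫ y, G y ^ 2 ∂m) * √((M + B) / (M - B)) := by
  have B0 : 0 ≤ B := (abs_nonneg _).trans (hB x)
  have M0 : 0 < M := B0.trans_lt hM
  have MB : 0 < M - B := sub_pos.2 hM
  obtain ⟨W, hW⟩ : ∃ W, W = M * m.real univ := ⟨_, rfl⟩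
  have W0 : 0 < W := hW ▸ mul_pos M0 hZ
  have ih : Integrable h m := Integrable.of_bound hh.aestronglyMeasurable B
    (Eventually.of_forall fun y => by rw [Real.norm_eq_abs]; exact hB y)
  let ρ : I → X → ℝ := fun t y => (M + t * h y) / W
  have iρ : ∀ t, Integrable (ρ t) m := fun t =>
    ((integrable_const M).add (ih.const_mul _)).div_const W
  have bd : ∀ (t : I) y, |(t : ℝ) * h y| ≤ B := fun t y => by
    rw [abs_mul, abs_of_nonneg t.2.1]
    exact (mul_le_of_le_one_left (abs_nonneg _) t.2.2).trans (hB y)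
  have lo : ∀ t y, (M - B) / W ≤ ρ t y := fun t y =>
    div_le_div_of_nonneg_right (by linarith [(abs_le.1 (bd t y)).1]) W0.le
  have up : ∀ t y, ρ t y ≤ (M + B) / W := fun t y =>
    div_le_div_of_nonneg_right (by linarith [(abs_le.1 (bd t y)).2]) W0.le
  have c0 : 0 < (M - B) / W := div_pos MB W0
  have p0 : ∀ t y, 0 ≤ ρ t y := fun t y => c0.le.trans (lo t y)
  let ν : I → Measure X := fun t => m.withDensity fun y => ENNReal.ofReal (ρ t y)
  have pν : ∀ t, IsProbabilityMeasure (ν t) := fun t => ⟨by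
    rw [withDensity_apply _ MeasurableSet.univ, Measure.restrict_univ,
      ← ofReal_integral_eq_lintegral_ofReal (iρ t) (Eventually.of_forall (p0 t))]
    have : ∫ y, ρ t y ∂m = 1 := by
      rw [integral_div, integral_add (integrable_const M) (ih.const_mul _), integral_const_mul, h0,
        integral_const, smul_eq_mul, div_eq_one_iff_eq W0.ne', hW]
      ring
    rw [this, ENNReal.ofReal_one]⟩
  have A0 : 0 ≤ N ^ 2 / (W * (M - B)) := by positivity
  obtain ⟨π, pπ, mπ, eπ⟩ := lisini ν A0 fun s t δ hδ => by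
    have := pν s
    have := pν t
    have hd : Dual m (fun y => ρ t y - ρ s y) (|((t : ℝ) - s) / W| * N) := by
      convert dual_smul H (((t : ℝ) - s) / W) using 2
      simp only [ρ]
      ring
    obtain ⟨q, -, q1, q2, -, -, q3⟩ := coupling c0 (iρ s) (iρ t) (Eventually.of_forall (lo s))
      (Eventually.of_forall (lo t)) hd hR
    refine ⟨q, q1, q2, le_trans (le_of_eq ?_) (q3.trans (ENNReal.ofReal_le_ofReal ?_))⟩
    · congr 1
      funext z
      rw [ENNReal.ofReal_pow dist_nonneg, edist_dist]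
    · rw [mul_pow, sq_abs]
      have : (((t : ℝ) - s) / W) ^ 2 * N ^ 2 / ((M - B) / W) =
          N ^ 2 / (W * (M - B)) * ((s : ℝ) - t) ^ 2 := by
        field_simp
        ring
      linarith
  have C0 : 0 ≤ (M + B) / W := by positivity
  have cν : ∀ t, ν t ≤ ((M + B) / W).toNNReal • m := fun t => by
    have e : ((M + B) / W).toNNReal • m =
        m.withDensity fun _ => ENNReal.ofReal ((M + B) / W) := by
      rw [withDensity_const]
      rfl
    rw [e]
    exact withDensity_mono (Eventually.of_forall fun y => ENNReal.ofReal_le_ofReal (up t y))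
  have cπ : ∀ t : I, π.map (fun γ => γ t) ≤ ((M + B) / W).toNNReal • m := fun t =>
    (mπ t).symm ▸ cν t
  have fin : ∀ᵐ γ : C(I, X) ∂π, Ed γ < ∞ :=
    ae_lt_top meas_Ed (eπ.trans_lt ENNReal.ofReal_lt_top).ne
  have en : ∫⁻ γ, ∫⁻ t, speed γ t ^ 2 ∂volume ∂π ≤ ENNReal.ofReal (N ^ 2 / (W * (M - B))) :=
    (lintegral_mono_ae (fin.mono fun γ hγ => (hE γ hγ).2)).trans eπ
  have tp : IsTestPlan m π :=
    ⟨pπ, ⟨_, cπ⟩, fin.mono fun γ hγ => (hE γ hγ).1, en.trans_lt ENNReal.ofReal_lt_top⟩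
  obtain ⟨⟨f2, G2, G0⟩, hU⟩ := hU
  have k1 := (hU π tp).trans ((hC m π _ cπ).1 (fun y => ENNReal.ofReal (G y))
    G2.1.aemeasurable.ennreal_ofReal).2
  have eG : ∫⁻ y, ENNReal.ofReal (G y) ^ 2 ∂m = ENNReal.ofReal (∫ y, G y ^ 2 ∂m) := by
    rw [ofReal_integral_eq_lintegral_ofReal G2.integrable_sq
      (Eventually.of_forall fun y => sq_nonneg _)]
    refine lintegral_congr_ae (G0.mono fun y hy => ?_)
    exact (ENNReal.ofReal_pow hy 2).symm
  have I0 : 0 ≤ ∫ y, G y ^ 2 ∂m := integral_nonneg fun y => sq_nonneg _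
  have f1 : Integrable f m := f2.integrable one_le_two
  have fν : ∀ t, Integrable f (ν t) := fun t =>
    (f1.smul_measure (c := ((M + B) / W).toNNReal) ENNReal.coe_ne_top).mono_measure (cν t)
  have ev : ∀ t : I, Measurable fun γ : C(I, X) => γ t := fun t =>
    (continuous_eval_const t).measurable
  have fπ : ∀ t : I, Integrable (fun γ : C(I, X) => f (γ t)) π ∧
      ∫ γ, f (γ t) ∂π = ∫ y, ρ t y * f y ∂m := fun t => by
    have a := fν t
    rw [← mπ t] at a
    refine ⟨a.comp_measurable (ev t), ?_⟩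
    rw [← integral_map (ev t).aemeasurable a.1, mπ t]
    exact P233.H886.integral_withDens (iρ t).1.aemeasurable (Eventually.of_forall (p0 t)) f
  have iρf : ∀ t, Integrable (fun y => ρ t y * f y) m := fun t =>
    int_mul (iρ t).1 (B := (M + B) / W) (fun y => by rw [abs_of_nonneg (p0 t y)]; exact up t y) f1
  have e1 : ∫ γ, (f (γ 1) - f (γ 0)) ∂π = (∫ y, f y * h y ∂m) / W := by
    rw [integral_sub (fπ 1).1 (fπ 0).1, (fπ 1).2, (fπ 0).2, ← integral_sub (iρf 1) (iρf 0),
      ← integral_div]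
    congr 1
    funext y
    simp only [ρ, Icc.coe_one, Icc.coe_zero]
    ring
  have k2 := (enorm_integral_le_lintegral_enorm _).trans (k1.trans
    (mul_le_mul_right (ENNReal.rpow_le_rpow en (by norm_num)) _))
  rw [e1, eG, ← ENNReal.ofReal, ← ENNReal.ofReal_mul C0,
    ENNReal.ofReal_rpow_of_nonneg (by positivity) (by norm_num),
    ENNReal.ofReal_rpow_of_nonneg A0 (by norm_num), ← ENNReal.ofReal_mul (by positivity),
    Real.enorm_eq_ofReal_abs, ENNReal.ofReal_le_ofReal_iff (by positivity), ← Real.sqrt_eq_rpow,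
    ← Real.sqrt_eq_rpow, ← Real.sqrt_mul (by positivity)] at k2
  have e2 : (M + B) / W * (∫ y, G y ^ 2 ∂m) * (N ^ 2 / (W * (M - B))) =
      (N / W) ^ 2 * ((∫ y, G y ^ 2 ∂m) * ((M + B) / (M - B))) := by
    field_simp
  rw [e2, Real.sqrt_mul (sq_nonneg _), Real.sqrt_sq (by positivity), Real.sqrt_mul I0] at k2
  have k3 := (le_abs_self _).trans k2
  rw [div_le_iff₀ W0] at k3
  refine k3.trans (le_of_eq ?_)
  field_simp

theorem key (hE : ENG X) (hC : CS X) : KEY X := by
  intro m _ x R hR f G h hU hh B N hB h0 hN H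
  rcases (measureReal_nonneg (μ := m) (s := univ)).eq_or_lt with hZ | hZ
  · obtain rfl : m = 0 := by
      rwa [eq_comm, measureReal_eq_zero_iff, Measure.measure_univ_eq_zero] at hZ
    simp
  have t1 : Tendsto (fun M : ℝ => 1 + 2 * B / (M - B)) atTop (𝓝 (1 + 0)) :=
    tendsto_const_nhds.add (tendsto_const_nhds.div_atTop
      (tendsto_atTop_add_const_right _ (-B) tendsto_id))
  have t2 := (t1.sqrt).const_mul (N * √(∫ y, G y ^ 2 ∂m))
  rw [add_zero, Real.sqrt_one, mul_one] at t2
  refine ge_of_tendsto t2 ?_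
  filter_upwards [eventually_gt_atTop B] with M hM
  have := key_M hE hC m hR hU hh hB h0 hN H hZ hM
  rwa [show (M + B) / (M - B) = 1 + 2 * B / (M - B) by
    have := (sub_pos.2 hM).ne'
    field_simp
    ring] at this

end Vale.Agent.P242W76
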